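import Crest.Agent.R273.UCovE_914
import Crest.Agent.R273.RMan4_798
import Crest.Agent.R273.PB_835
import Crest.Agent.R273.Fock_243
import Crest.Agent.R275.Del_75
import Crest.Agent.R281.ThnM_280
import Crest.Agent.R281.Kd3_22
import Crest.Agent.X261.Psh.Defs

/-!
# Row 261, TOP (helper53), file `Defs`: the common language

* `AnM B Z`      : analytic subsets of a manifold with atlas `B`;
* `HolV B U f`   : `f : M → ℂ^p` holomorphic on `U`; `dW B i f x` : `df_1 ∧ … ∧ df_p` in the chart `i`;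
* `Tube B G p`   : the maximal fibration by compact analytic sets (the `G`-reduction), on a dense
                   open set `M0`, with the maximality property off a `σ`-thin set;
* `TOm L p e`    : a holomorphic `p`-form with values in `L⁻¹`;
* `Cod2 B Z`     : usable form of "codimension at least two";
* `FCh`          : foliated charts;
* `Fol D p`      : tube structure on the cover `D.cov G` + the saturated line bundle `L ⊆ Ω^p` on `X`;
* `PshW h u`     : `u` is the potential of a singular semipositive metric `h e^{-u}`;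
* `Pol`          : the weights with a pole along one fibre (input of the last step).
-/

set_option autoImplicit false
set_option linter.unusedSectionVars false
set_option linter.dupNamespace false

open Set Filter Topology Complex Matrix MeasureTheory
open scoped ContDiff Matrix ComplexConjugate ENNReal Pointwise

namespace Crest.Agent.X261.Top

open Crest.Agent.R275.Geo Crest.Agent.R275.Core144 Crest.Agent.R275.GC293
open Crest.Agent.R275.OmT75 (dl)
open Crest.Agent.R273.Defs_333 Crest.Agent.R273.Kah_333 Crest.Agent.R273.UCov_914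
open Crest.Agent.R273.Fock_243 (FI Gam)
open Crest.Agent.R273.PB_835 (Ref LBih)
open Crest.Agent.R281.ThnM_280 (SThM Crit)
open Crest.Agent.X261.Psh (IsPsh)

noncomputable section

variable {n : ℕ} {M : Type} [TopologicalSpace M]

/-! ### analytic sets, maps to `ℂ^p` -/

/-- analytic subsets: locally the common zeros of finitely many holomorphic functions -/
def AnM (B : Atl n M) (Z : Set M) : Prop :=
  ∀ x : M, ∃ U : Set M, IsOpen U ∧ x ∈ U ∧ ∃ (k : ℕ) (f : Fin k → M → ℂ),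
    (∀ j i, HolAt B i U (f j)) ∧ ∀ y ∈ U, (y ∈ Z ↔ ∀ j, f j y = 0)

/-- `f : M → ℂ^p` is holomorphic on `U` -/
def HolV (B : Atl n M) (U : Set M) {p : ℕ} (f : M → Cn p) : Prop :=
  ∀ i, DifferentiableOn ℂ (fun z => f ((B.e i).symm z)) ((B.e i).target ∩ (B.e i).symm ⁻¹' U)

/-- the wedge product of `p` covectors: the `p × p` minors -/
def wdg {p : ℕ} (v : Fin p → Fin n → ℂ) : FI n → ℂ := fun S =>
  if h : S.card = p then (Matrix.of fun k l : Fin p => v k (S.orderEmbOfFin h l)).det else 0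

/-- `df_1 ∧ … ∧ df_p` in the chart `i` -/
def dW (B : Atl n M) (i : B.ι) {p : ℕ} (f : M → Cn p) (x : M) : FI n → ℂ :=
  wdg fun k a => dl B i a (fun y => f y k) x

/-- the maximal fibration by compact connected analytic sets.  `T x` is a saturated neighbourhood
of `x ∈ M0` ("tube"), `π x : T x → ball 0 1` a proper holomorphic submersion whose fibres are the
classes `W y`. -/
structure Tube (B : Atl n M) (G : Type) [Group G] [MulAction G M] (p : ℕ) where
  M0 : Set M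
  opn : IsOpen M0
  thin : SThM B M0ᶜ
  inv : ∀ g : G, ∀ x ∈ M0, g • x ∈ M0
  W : M → Set M
  W_mem : ∀ x ∈ M0, x ∈ W x
  W_eq : ∀ x ∈ M0, ∀ y ∈ W x, W y = W x
  W_inv : ∀ g : G, ∀ x ∈ M0, W (g • x) = g • W x
  W_conn : ∀ x ∈ M0, IsPreconnected (W x)
  T : M → Set M
  π : M → M → Cn p
  T_opn : ∀ x ∈ M0, IsOpen (T x)
  T_mem : ∀ x ∈ M0, x ∈ T x
  T_sub : ∀ x ∈ M0, T x ⊆ M0
  π_hol : ∀ x ∈ M0, HolV B (T x) (π x)
  π_cont : ∀ x ∈ M0, ContinuousOn (π x) (T x)
  π_subm : ∀ x ∈ M0, Crit B (T x) (π x) = ∅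
  π_self : ∀ x ∈ M0, π x x = 0
  π_img : ∀ x ∈ M0, π x '' T x = Metric.ball 0 1
  π_prop : ∀ x ∈ M0, ∀ r < (1 : ℝ), IsCompact {y | y ∈ T x ∧ ‖π x y‖ ≤ r}
  π_fib : ∀ x ∈ M0, ∀ y ∈ T x, W y = {z | z ∈ T x ∧ π x z = π x y}
  /-- the conormal line is meromorphic: local holomorphic `p`-forms proportional to `dπ` -/
  mer : ∀ x : M, ∃ (i : B.ι) (U : Set M) (τ : M → FI n → ℂ), IsOpen U ∧ x ∈ U ∧
    U ⊆ (B.e i).source ∧ (∀ S, HolAt B i U fun y => τ y S) ∧
    (∀ y S, S.card ≠ p → τ y S = 0) ∧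
    (∀ V : Set M, IsOpen V → V.Nonempty → V ⊆ U → ∃ y ∈ V, τ y ≠ 0) ∧
    ∀ x' ∈ M0, ∀ y ∈ U ∩ T x', ∃ c : ℂ, τ y = c • dW B i (π x') y
  /-- the points that are not very general -/
  Bad : Set M
  bad_thin : SThM B Bad
  bad_inv : ∀ g : G, ∀ x ∈ Bad, g • x ∈ Bad
  /-- maximality -/
  max : ∀ x ∈ M0, x ∉ Bad → ∀ Z : Set M, IsCompact Z → IsPreconnected Z → AnM B Z → x ∈ Z →
    Z ⊆ W x

/-! ### twisted forms, codimension two, foliated charts -/

/-- a holomorphic `p`-form with values in `L⁻¹`, i.e. a sheaf map `L → Ω^p` -/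
structure TOm {A : Atl n M} (L : LB A) (p : ℕ) (e : A.ι → M → FI n → ℂ) : Prop where
  hol : ∀ i S, HolAt A i univ fun x => e i x S
  off : ∀ i, ∀ x ∉ (A.e i).source, e i x = 0
  deg : ∀ i x S, S.card ≠ p → e i x S = 0
  tr : ∀ i j, ∀ x ∈ (A.e i).source ∩ (A.e j).source,
    e i x = (L.g i j x)⁻¹ • (Gam (Jm A i j x)ᵀ *ᵥ e j x)

/-- `Z` has codimension at least two, in the form used for removable singularities: near every
point, each point off `Z` is the centre of a closed linear disc that avoids `Z` and whose boundary lies in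
a fixed compact set disjoint from `Z`. -/
def Cod2 (B : Atl n M) (Z : Set M) : Prop :=
  IsClosed Z ∧ SThM B Z ∧ ∀ i, ∀ z₀ ∈ (B.e i).target, ∀ O ∈ 𝓝 z₀, ∃ N ∈ 𝓝 z₀, ∃ C : Set (Cn n),
    IsCompact C ∧ C ⊆ O ∩ (B.e i).target ∧ (∀ z ∈ C, (B.e i).symm z ∉ Z) ∧
    ∀ z ∈ N, (B.e i).symm z ∉ Z → ∃ v : Cn n,
      (∀ t : ℂ, ‖t‖ ≤ 1 → z + t • v ∈ O ∩ (B.e i).target ∧ (B.e i).symm (z + t • v) ∉ Z) ∧
      ∀ t : ℂ, ‖t‖ = 1 → z + t • v ∈ C

/-- a foliated chart for the tube structure `𝒯`: a biholomorphism `(t, w)` of an open set `U`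
(inside one chart `i` of the atlas) onto `ball 0 2 × ball 0 2 ⊆ ℂ^p × ℂ^r`, such that the plaques
`{t = const}` lie in the fibres and `dt` is a unit multiple of the given form `ε`. -/
structure FCh {B : Atl n M} {G : Type} [Group G] [MulAction G M] {p : ℕ} (𝒯 : Tube B G p)
    (r : ℕ) (ε : B.ι → M → FI n → ℂ) where
  i : B.ι
  φ : OpenPartialHomeomorph M (Cn p × Cn r)
  sub : φ.source ⊆ (B.e i).source
  tgt : φ.target = Metric.ball 0 2 ×ˢ Metric.ball 0 2
  hol₁ : HolV B φ.source fun y => (φ y).1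
  hol₂ : HolV B φ.source fun y => (φ y).2
  hol' : DifferentiableOn ℂ (fun q => B.e i (φ.symm q)) φ.target
  c : M → ℂ
  c_hol : HolAt B i φ.source c
  c_ne : ∀ y ∈ φ.source, c y ≠ 0
  gen : ∀ y ∈ φ.source, ε i y = c y • dW B i (fun y => (φ y).1) y
  plq : ∀ y ∈ φ.source, y ∈ 𝒯.M0 → ∀ z ∈ φ.source, (φ z).1 = (φ y).1 → z ∈ 𝒯.W y

/-! ### the cover -/

variable {X : Type} [TopologicalSpace X] {A : Atl n X} {G : Type} [Group G]

/-- pull-back of a cocycle to a finer atlas -/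
def ref {A' : Atl n X} (D : MonD A G) (R : Ref A' A id) : MonD A' G where
  c i j x := D.c (R.r i) (R.r j) x
  c_self i x hx := D.c_self _ x (R.sub i x hx)
  c_mul i j k x hx := D.c_mul _ _ _ x ⟨⟨R.sub i x hx.1.1, R.sub j x hx.1.2⟩, R.sub k x hx.2⟩
  c_loc i j x hx y hy :=
    D.c_loc _ _ x ⟨R.sub i x hx.1, R.sub j x hx.2⟩ y ⟨R.sub i y hy.1, R.sub j y hy.2⟩

/-- the form `e` read on the cover -/
def upF (D : MonD A G) (e : A.ι → X → FI n → ℂ) : (D.atl G).ι → D.cov G → FI n → ℂ :=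
  fun q y => e q.1 (D.pr y)

/-- tube structure on the cover together with the saturated line bundle `L ⊆ Ω^p` on `X` -/
structure Fol (D : MonD A G) (p : ℕ) where
  T : Tube (D.atl G) G p
  L : LB A
  e : A.ι → X → FI n → ℂ
  tom : TOm L p e
  /-- the coefficients of `e` have no common factor -/
  cop : ∀ i, ∀ x ∈ (A.e i).source, Crest.Agent.R281.Kd_22.Cop A (fun S y => e i y S) x
  gen : ∀ x ∈ T.M0, ∀ q : (D.atl G).ι, ∀ y ∈ T.T x, y ∈ ((D.atl G).e q).source →
    ∃ c : ℂ, c ≠ 0 ∧ upF D e q y = c • dW (D.atl G) q (T.π x) y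

/-- the zero set of `e` on the cover -/
def Fol.Z {D : MonD A G} {p : ℕ} (F : Fol D p) : Set (D.cov G) :=
  {y | ∀ i, F.e i (D.pr y) = 0}

/-- `u` is the potential of a singular metric `h e^{-u}` of semipositive curvature -/
def PshW {B : Atl n M} {L : LB B} (h : HM L) (u : M → EReal) : Prop :=
  ∀ i, IsPsh (B.e i).target fun z => u ((B.e i).symm z) + (h.wt i z : ℝ)

/-- `exp (-N u)` -/
def eN (N : ℝ) (a : EReal) : ℝ≥0∞ := EReal.exp (-((N : EReal) * a))

/-- the input of the last step: semipositive singular metrics `φ` (invariant) and `S` on `L` with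
`S` having a pole at the very general point `x₀` and `S - φ` bounded below off a small tube. -/
structure Pol {D : MonD A G} {p : ℕ} (F : Fol D p) (h : HM F.L) where
  φ : D.cov G → EReal
  φ_psh : PshW (D.pullHM (F := G) h) φ
  φ_inv : ∀ (g : G) x, φ (g • x) = φ x
  φ_le : ∀ x, φ x ≤ 0
  x₀ : D.cov G
  x₀_mem : x₀ ∈ F.T.M0
  q : (D.atl G).ι
  q_mem : x₀ ∈ ((D.atl G).e q).source
  int : ∀ N : ℝ, 0 < N → ∃ V ∈ 𝓝 ((D.atl G).e q x₀),
    ∫⁻ z in V, eN N (φ (((D.atl G).e q).symm z)) < ⊤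
  c : ℝ
  c_pos : 0 < c
  S : ℝ → D.cov G → EReal
  S_psh : ∀ ρ ∈ Ioo (0 : ℝ) 1, PshW (D.pullHM (F := G) h) (S ρ)
  S_le : ∀ ρ ∈ Ioo (0 : ℝ) 1, ∀ x, S ρ x ≤ φ x
  S_ge : ∀ ρ ∈ Ioo (0 : ℝ) 1, ∃ a : ℝ, ∀ x, ¬ (x ∈ F.T.T x₀ ∧ ‖F.T.π x₀ x‖ < ρ) →
    φ x - (a : EReal) ≤ S ρ x
  S_pole : ∀ ρ ∈ Ioo (0 : ℝ) 1, ∃ C : ℝ, ∀ᶠ z in 𝓝[≠] ((D.atl G).e q x₀),
    S ρ (((D.atl G).e q).symm z) ≤
      ((c * Real.log ‖z - (D.atl G).e q x₀‖ + C : ℝ) : EReal)

/-! ### the statements -/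

/-- GRED (55, 29): the `G`-reduction of an infinite Galois cover -/
def GredStmt : Prop :=
  ∀ (n : ℕ) (X : Type) [TopologicalSpace X] [T2Space X] [CompactSpace X] [ConnectedSpace X]
    (A : Atl n X) [Finite A.ι], GoodA A → Part A → Kah A →
    ∀ (G : Type) [Group G] [Infinite G] (D : MonD A G), ConnectedSpace (D.cov G) →
      ∃ p : ℕ, 1 ≤ p ∧ p ≤ n ∧ Nonempty (Tube (D.atl G) G p)

/-- FOL (53 on top of SAT of 63): the saturated line bundle on a finer atlas -/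
def FolStmt : Prop :=
  ∀ (n : ℕ) (X : Type) [TopologicalSpace X] [T2Space X] [CompactSpace X] [ConnectedSpace X]
    (A : Atl n X) [Finite A.ι], GoodA A → Part A → Kah A →
    ∀ (G : Type) [Group G] (D : MonD A G), ConnectedSpace (D.cov G) →
    ∀ p : ℕ, Tube (D.atl G) G p →
      ∃ (A' : Atl n X) (_ : Finite A'.ι) (R : Ref A' A id), GoodA A' ∧ Nonempty (Part A') ∧
        Nonempty (Kah A') ∧ LBih A' A id ∧ LBih A A' id ∧ Nonempty (Fol (ref D R) p)


/-- JET + POIN (6, 68, 71, 17): sections of a power of `L` with independent ratios -/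
def JetStmt : Prop :=
  ∀ (n : ℕ) (X : Type) [TopologicalSpace X] [T2Space X] [CompactSpace X] [ConnectedSpace X]
    (A : Atl n X) [Finite A.ι], GoodA A → Part A → Kah A →
    ∀ (G : Type) [Group G] (D : MonD A G), ConnectedSpace (D.cov G) →
    ∀ (p : ℕ), 1 ≤ p → ∀ (F : Fol D p) (h : HM F.L), Pol F h →
      ∃ (m : ℕ) (s : Fin (p + 1) → A.ι → X → ℂ), 0 < m ∧ (∀ k, IsHS (F.L ^ m) univ (s k)) ∧
        ∃ i, ∃ x ∈ (A.e i).source, (wdg fun (k : Fin p) (a : Fin n) =>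
          s 0 i x * dl A i a (s k.succ i) x - s k.succ i x * dl A i a (s 0 i) x) ≠ 0

end

end Crest.Agent.X261.Top
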